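import Mathlib

namespace Vale.Agent.P052.R3.H958

theorem real_cap5 {κ ω z z' E : ℝ} (hz : 3 / 16 ≤ z) (hz1 : z ≤ 1) (hz' : 3 / 16 ≤ z')
    (hz'1 : z' ≤ 1) (a : 5 * κ ^ 2 ≤ 5 * κ + 2 * z ^ 2) (b : 5 * ω ^ 2 ≤ 5 * ω + 2 * z' ^ 2)
    (h0 : 0 ≤ E)
    (hc : (2 + 5 * κ + 5 * ω) ^ 2 ≤
      5 * ((1 - 2 * z ^ 2 + 5 * κ ^ 2) + (1 - 2 * z' ^ 2 + 5 * ω ^ 2) + 2 * E)) :
    5 * (κ * ω) < E + 2 * (z * z') := by
  by_contra hcon
  push Not at hcon
  have h1 : (z + z') ^ 2 + 2 * (κ + ω) ≤ 3 / 5 := by linarith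
  have hzz : 3 / 16 * (3 / 16) ≤ z * z' := mul_le_mul hz hz' (by norm_num) (by linarith)
  have hkw : 2 * (z * z') ≤ 5 * (κ * ω) := by linarith
  have hkw0 : 0 < κ * ω := by linarith
  have hs : (3 / 8) ^ 2 ≤ (z + z') ^ 2 := pow_le_pow_left₀ (by norm_num) (by linarith) 2
  rcases lt_or_ge 0 κ with hk | hk
  · have hw : 0 < ω := (mul_pos_iff_of_pos_left hk).1 hkw0
    have h2 : 225 / 4000 ≤ (κ + ω) ^ 2 := by
      have := sq_nonneg (κ - ω)
      linarith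
    have h3 : 237 / 1000 ≤ κ + ω := by
      by_contra h
      push Not at h
      have h4 : (κ + ω) ^ 2 ≤ (237 / 1000) ^ 2 := pow_le_pow_left₀ (by linarith) h.le 2
      linarith
    linarith
  · have hk0 : κ < 0 := lt_of_le_of_ne hk (by rintro rfl; simp at hkw0)
    have hw : ω < 0 := by
      by_contra h
      push Not at h
      have := mul_nonneg (neg_nonneg.2 hk) h
      linarith
    have h2 : 5 * -κ ≤ 2 * z ^ 2 := by linarith [sq_nonneg κ]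
    have h3 : 5 * -ω ≤ 2 * z' ^ 2 := by linarith [sq_nonneg ω]
    have h4 : (5 * -κ) * (5 * -ω) ≤ (2 * z ^ 2) * (2 * z' ^ 2) :=
      mul_le_mul h2 h3 (by linarith) (by positivity)
    have h5 : z * z' ≤ 1 := mul_le_one₀ hz1 (by linarith) hz'1
    have h6 : (z * z') * (z * z') ≤ z * z' :=
      mul_le_of_le_one_left (by linarith) h5
    linarith

end Vale.Agent.P052.R3.H958
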